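import Vale.Agent.P260.H848.V6
import Vale.Agent.P260.H802.VSpec

/-!
P260, block V, module V6 (helper848): `StmtExt` in the letters of `H802/VSpec.lean`.
-/

namespace Vale.Agent.P260.H848

/-- **V6, `StmtExt`.** -/
theorem stmtExt : Vale.Agent.P260.H802.StmtExt := by
  intro G Q _ _ f hQ hfg hN
  exact vsolv_of_hom hQ f hfg hN

end Vale.Agent.P260.H848
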