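import Vale.Agent.P260.Defs

/-!
P260, block V, module V6 (helper848): a group with a finitely generated virtually solvable normal
subgroup and solvable quotient is virtually solvable.
-/

namespace Vale.Agent.P260.H848

/-- There are finitely many homomorphisms from a finitely generated group to a finite group. -/
theorem finite_hom (N M : Type*) [Group N] [Group M] [Finite M] (hN : Group.FG N) :
    Finite (N →* M) := by
  obtain ⟨S, hS⟩ := (hN.out : (⊤ : Subgroup N).FG)
  refine Finite.of_injective (fun (f : N →* M) (s : S) => f s.1) ?_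
  intro f g h
  refine MonoidHom.eq_of_eqOn_dense hS ?_
  intro x hx
  exact congrFun h ⟨x, hx⟩

/-- The intersection of all kernels of homomorphisms to a given group. -/
def core (N M : Type*) [Group N] [Group M] : Subgroup N := ⨅ f : N →* M, f.ker

theorem mem_core {N M : Type*} [Group N] [Group M] {x : N} :
    x ∈ core N M ↔ ∀ f : N →* M, f x = 1 := by
  simp [core, Subgroup.mem_iInf, MonoidHom.mem_ker]

theorem core_fin (N M : Type*) [Group N] [Group M] [Finite M] (hN : Group.FG N) :
    (core N M).FiniteIndex := by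
  have := finite_hom N M hN
  unfold core
  exact Subgroup.finiteIndex_iInf fun f => inferInstance

theorem core_map {N M : Type*} [Group N] [Group M] (e : N →* N) {x : N} (hx : x ∈ core N M) :
    e x ∈ core N M := by
  rw [mem_core] at hx ⊢
  intro f
  exact hx (f.comp e)

theorem core_le {N : Type*} [Group N] (H : Subgroup N) : core N (Equiv.Perm (N ⧸ H)) ≤ H := by
  intro x hx
  rw [mem_core] at hx
  have h := hx (MulAction.toPermHom N (N ⧸ H))
  have h2 : x ∈ H.normalCore := by
    rw [Subgroup.normalCore_eq_ker]
    exact h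
  exact Subgroup.normalCore_le H h2

/-- **V6.** A group with a finitely generated, virtually solvable normal subgroup and solvable
quotient is virtually solvable. -/
theorem vsolv_ext (G : Type*) [Group G] (N : Subgroup G) [N.Normal] (hfg : Group.FG N)
    (hN : VSolv N) (hQ : Group.IsSolvable (G ⧸ N)) : VSolv G := by
  obtain ⟨H0, hfi, hsol⟩ := hN
  have hfin : Finite (Equiv.Perm (N ⧸ H0)) := inferInstance
  set K0 : Subgroup N := core N (Equiv.Perm (N ⧸ H0)) with hK0
  have hK0fi : K0.FiniteIndex := core_fin N _ hfg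
  have hK0le : K0 ≤ H0 := core_le H0
  have hK0s : Group.IsSolvable K0 :=
    Group.isSolvable_of_isSolvable_injective (Subgroup.inclusion_injective hK0le)
  set K : Subgroup G := K0.map N.subtype with hK
  have hKN : K ≤ N := by
    rintro _ ⟨y, -, rfl⟩
    exact y.2
  have hKs : Group.IsSolvable K := by
    have hs : Function.Surjective (N.subtype.subgroupMap K0) :=
      N.subtype.subgroupMap_surjective K0
    exact Group.isSolvable_of_surjective hs
  have hKn : K.Normal := by
    refine ⟨?_⟩
    rintro _ ⟨y, hy, rfl⟩ g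
    refine ⟨MulAut.conjNormal g y, ?_, ?_⟩
    · exact core_map (MulAut.conjNormal g).toMonoidHom hy
    · simp
  let q : G →* G ⧸ K := QuotientGroup.mk' K
  let Nb : Subgroup (G ⧸ K) := N.map q
  have hNbn : Nb.Normal := Subgroup.Normal.map inferInstance q (QuotientGroup.mk'_surjective K)
  have hNbf : Finite Nb := by
    have h1 : Finite (N ⧸ K0) := inferInstance
    have h2 : ∀ a b : N, (QuotientGroup.leftRel K0) a b →
        (⟨q a, Subgroup.mem_map_of_mem q a.2⟩ : Nb) = ⟨q b, Subgroup.mem_map_of_mem q b.2⟩ := by
      intro a b hab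
      rw [QuotientGroup.leftRel_apply] at hab
      apply Subtype.ext
      change (QuotientGroup.mk (a : G) : G ⧸ K) = QuotientGroup.mk (b : G)
      rw [QuotientGroup.eq]
      exact ⟨_, hab, by simp⟩
    let F : N ⧸ K0 → Nb := Quotient.lift (fun a : N =>
      (⟨q a, Subgroup.mem_map_of_mem q a.2⟩ : Nb)) h2
    refine Finite.of_surjective F ?_
    rintro ⟨_, x, hx, rfl⟩
    exact ⟨QuotientGroup.mk ⟨x, hx⟩, rfl⟩
  let φ : (G ⧸ K) →* MulAut Nb := MulAut.conjNormal
  have hMf : Finite (MulAut Nb) := by
    refine Finite.of_injective (fun (e : MulAut Nb) => (e : Nb → Nb)) ?_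
    intro a b h
    exact MulEquiv.ext fun x => congrFun h x
  have hker : φ.ker.FiniteIndex := inferInstance
  let C : Subgroup G := φ.ker.comap q
  have hC : C.FiniteIndex := by
    refine ⟨?_⟩
    rw [Subgroup.index_comap_of_surjective φ.ker (QuotientGroup.mk'_surjective K)]
    exact hker.index_ne_zero
  have hmemC : ∀ g ∈ C, ∀ n ∈ N, q g * q n = q n * q g := by
    intro g hg n hn
    have h1 : φ (q g) = 1 := hg
    have h2 : φ (q g) ⟨q n, Subgroup.mem_map_of_mem q hn⟩ =
        ⟨q n, Subgroup.mem_map_of_mem q hn⟩ := by rw [h1]; rfl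
    have h3 := congrArg Subtype.val h2
    rw [MulAut.conjNormal_apply] at h3
    exact mul_inv_eq_iff_eq_mul.1 h3
  let D : Subgroup G := C ⊓ N
  have hKD : K ≤ D := by
    refine le_inf ?_ hKN
    intro x hx
    have h1 : q x = 1 := (QuotientGroup.eq_one_iff x).2 hx
    change φ (q x) = 1
    rw [h1, map_one]
  have hDs : Group.IsSolvable D := by
    have hc : Group.IsSolvable (D.map q) := by
      refine Group.isSolvable_of_comm ?_
      rintro ⟨_, a, ha, rfl⟩ ⟨_, b, hb, rfl⟩
      apply Subtype.ext
      exact hmemC a ha.1 b hb.2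
    refine Group.isSolvable_of_ker_le_range (Subgroup.inclusion hKD) (q.subgroupMap D) ?_
    intro x hx
    have h1 : q x.1 = 1 := congrArg Subtype.val hx
    have h2 : x.1 ∈ K := (QuotientGroup.eq_one_iff x.1).1 h1
    exact ⟨⟨x.1, h2⟩, Subtype.ext rfl⟩
  refine ⟨C, hC, ?_⟩
  have hDC : D ≤ C := inf_le_left
  refine Group.isSolvable_of_ker_le_range (Subgroup.inclusion hDC)
    ((QuotientGroup.mk' N).comp C.subtype) ?_
  intro x hx
  have h1 : (QuotientGroup.mk' N) x.1 = 1 := hx
  have h2 : x.1 ∈ N := (QuotientGroup.eq_one_iff x.1).1 h1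
  exact ⟨⟨x.1, x.2, h2⟩, Subtype.ext rfl⟩

/-- Form with a homomorphism to a solvable group. -/
theorem vsolv_of_hom {G Q : Type*} [Group G] [Group Q] (hQ : Group.IsSolvable Q) (f : G →* Q)
    (hfg : Group.FG f.ker) (hN : VSolv f.ker) : VSolv G := by
  refine vsolv_ext G f.ker hfg hN ?_
  exact Group.isSolvable_of_isSolvable_injective (QuotientGroup.kerLift_injective f)

/-- Form with a homomorphism to a commutative group. -/
theorem vsolv_of_comm {G Q : Type*} [Group G] [CommGroup Q] (f : G →* Q)
    (hfg : Group.FG f.ker) (hN : VSolv f.ker) : VSolv G :=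
  vsolv_of_hom inferInstance f hfg hN

/-- Virtual solvability passes to a group containing a virtually solvable subgroup of finite
index. -/
theorem vsolv_of_fin {G : Type*} [Group G] (H : Subgroup G) (hH : H.FiniteIndex)
    (h : VSolv H) : VSolv G := by
  obtain ⟨K, hK, hs⟩ := h
  refine ⟨K.map H.subtype, ?_, ?_⟩
  · refine ⟨?_⟩
    rw [Subgroup.index_map_subtype]
    exact mul_ne_zero hK.index_ne_zero hH.index_ne_zero
  · have hsj : Function.Surjective (H.subtype.subgroupMap K) :=
      H.subtype.subgroupMap_surjective K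
    exact Group.isSolvable_of_surjective hsj

/-- A group with a finite index subgroup that embeds into `ℤ` is virtually solvable. -/
theorem vsolv_of_virt_int {G : Type*} [Group G]
    (h : ∃ H : Subgroup G, H.FiniteIndex ∧
      ∃ f : H →* Multiplicative ℤ, Function.Injective f) : VSolv G := by
  obtain ⟨H, hH, f, hf⟩ := h
  exact ⟨H, hH, Group.isSolvable_of_isSolvable_injective hf⟩

end Vale.Agent.P260.H848
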